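import Vale.Agent.Lib.P160.RV.Defs

/-!
# P160, piece SS-5 of the Sarkozy-Szemeredi row bound: signs from subsets

`ss_row_of`: a bound `#{S ⊆ Fin n : ∑_{i ∈ S} a i = x} * (n * sqrt n) ≤ C * 2 ^ n` for all
positive strictly increasing `a` (piece SS-4) gives the row bound
`#{x : κ → ℤˣ : sdot x w = c} * (D * sqrt D) ≤ C * 2 ^ card κ` for every real vector `w` with at
least `D` distinct absolute values among its nonzero coordinates.
-/

namespace Vale.Agent.Lib.P160.H70

open Finset
open Vale.Agent.Lib.P160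

/-- One coordinate: a sign times a real number `u` with `|u| = b` is `b` or `-b`, according to
the sign of the product. -/
theorem term_abs (e : ℤˣ) (u b : ℝ) (hb : |u| = b) :
    ((e : ℤ) : ℝ) * u = if 0 < ((e : ℤ) : ℝ) * u then b else -b := by
  subst hb
  rcases Int.units_eq_one_or e with h | h
  · by_cases hp : 0 < u
    · simp [h, hp, abs_of_pos hp]
    · simp [h, hp, abs_of_nonpos (not_lt.1 hp)]
  · by_cases hp : u < 0
    · simp [h, hp, abs_of_neg hp]
    · simp [h, hp, abs_of_nonneg (not_lt.1 hp)]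

/-- Signs from subsets: the subset-sum bound of piece SS-4 gives the row bound `ss_row`. -/
theorem ss_row_of (C : ℝ) (hC : 0 < C)
    (h4 : ∀ (n : ℕ) (a : Fin n → ℝ), (∀ i, 0 < a i) → StrictMono a → ∀ x : ℝ,
      ((univ.filter fun S : Finset (Fin n) => ∑ i ∈ S, a i = x).card : ℝ) *
        ((n : ℝ) * Real.sqrt (n : ℝ)) ≤ C * 2 ^ n) :
    ∀ (κ : Type) [Fintype κ] [DecidableEq κ] (w : κ → ℝ) (c : ℝ) (D : ℕ), D ≤ dabs w →
      ((univ.filter fun x : κ → ℤˣ => sdot x w = c).card : ℝ) *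
        ((D : ℝ) * Real.sqrt (D : ℝ)) ≤ C * 2 ^ Fintype.card κ := by
  classical
  intro κ _ _ w c D hD
  -- choose `D` distinct absolute values and order them increasingly
  obtain ⟨V, hVsub, hVcard⟩ := Finset.exists_subset_card_eq hD
  let a : Fin D → ℝ := fun i => V.orderEmbOfFin hVcard i
  have ha_mono : StrictMono a := (V.orderEmbOfFin hVcard).strictMono
  have ha_mem : ∀ i, a i ∈ V := fun i => Finset.orderEmbOfFin_mem V hVcard i
  have hex : ∀ i, ∃ j, w j ≠ 0 ∧ |w j| = a i := by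
    intro i
    have h := hVsub (ha_mem i)
    rw [Finset.mem_image] at h
    obtain ⟨j, hj, hj'⟩ := h
    exact ⟨j, (Finset.mem_filter.1 hj).2, hj'⟩
  choose g hg0 hga using hex
  have hg_inj : Function.Injective g := by
    intro i i' h
    apply ha_mono.injective
    rw [← hga i, ← hga i', h]
  have ha_pos : ∀ i, 0 < a i := fun i => by
    rw [← hga i]
    exact abs_pos.2 (hg0 i)
  -- the coordinates outside the range of `g`
  let p : κ → Prop := fun j => j ∈ Set.range g
  let R : Type := {j // ¬ p j} → ℤˣ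
  let ρ : (κ → ℤˣ) → R := fun x j => x j.1
  let Pm : (κ → ℤˣ) → Finset (Fin D) := fun x =>
    univ.filter fun i => 0 < ((x (g i) : ℤ) : ℝ) * w (g i)
  let τ : R → ℝ := fun r =>
    (c - ∑ j : {j // ¬ p j}, ((r j : ℤ) : ℝ) * w j.1 + ∑ i, a i) / 2
  -- the key identity
  have hkey : ∀ x : κ → ℤˣ, sdot x w =
      ∑ j : {j // ¬ p j}, ((ρ x j : ℤ) : ℝ) * w j.1 + (2 * ∑ i ∈ Pm x, a i - ∑ i, a i) := by
    intro x
    unfold sdot
    rw [← Fintype.sum_subtype_add_sum_subtype p (fun j => ((x j : ℤ) : ℝ) * w j), add_comm]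
    congr 1
    have h1 : ∑ j : {j // p j}, ((x j.1 : ℤ) : ℝ) * w j.1 =
        ∑ i : Fin D, ((x (g i) : ℤ) : ℝ) * w (g i) := by
      rw [← Equiv.sum_comp (Equiv.ofInjective g hg_inj)
        (fun j : {j // p j} => ((x j.1 : ℤ) : ℝ) * w j.1)]
      rfl
    trans ∑ i : Fin D, ((x (g i) : ℤ) : ℝ) * w (g i)
    · convert h1
    have h2 : ∀ i : Fin D, ((x (g i) : ℤ) : ℝ) * w (g i) =
        2 * (if i ∈ Pm x then a i else 0) - a i := by
      intro i
      rw [term_abs (x (g i)) (w (g i)) (a i) (hga i)]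
      by_cases hi : 0 < ((x (g i) : ℤ) : ℝ) * w (g i)
      · have hm : i ∈ Pm x := Finset.mem_filter.2 ⟨Finset.mem_univ _, hi⟩
        rw [if_pos hi, if_pos hm]
        ring
      · have hm : i ∉ Pm x := fun hm => hi (Finset.mem_filter.1 hm).2
        rw [if_neg hi, if_neg hm]
        ring
    rw [Finset.sum_congr rfl (fun i _ => h2 i), Finset.sum_sub_distrib, ← Finset.mul_sum,
      Finset.sum_ite_mem, Finset.univ_inter]
  -- injectivity of `x ↦ (ρ x, Pm x)`
  have hinj : ∀ x y : κ → ℤˣ, ρ x = ρ y → Pm x = Pm y → x = y := by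
    intro x y hr hP
    funext j
    by_cases hj : p j
    · obtain ⟨i, rfl⟩ := hj
      have hx := term_abs (x (g i)) (w (g i)) (a i) (hga i)
      have hy := term_abs (y (g i)) (w (g i)) (a i) (hga i)
      have hiff : (0 < ((x (g i) : ℤ) : ℝ) * w (g i)) ↔ (0 < ((y (g i) : ℤ) : ℝ) * w (g i)) := by
        have hx' : i ∈ Pm x ↔ 0 < ((x (g i) : ℤ) : ℝ) * w (g i) := by
          simp [Pm]
        have hy' : i ∈ Pm y ↔ 0 < ((y (g i) : ℤ) : ℝ) * w (g i) := by
          simp [Pm]
        rw [← hx', ← hy', hP]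
      have h1 : ((x (g i) : ℤ) : ℝ) * w (g i) = ((y (g i) : ℤ) : ℝ) * w (g i) := by
        rw [hx, hy]
        by_cases hi : 0 < ((x (g i) : ℤ) : ℝ) * w (g i)
        · rw [if_pos hi, if_pos (hiff.1 hi)]
        · rw [if_neg hi, if_neg (fun h => hi (hiff.2 h))]
      have h2 : ((x (g i) : ℤ) : ℝ) = ((y (g i) : ℤ) : ℝ) := mul_right_cancel₀ (hg0 i) h1
      exact Units.ext (by exact_mod_cast h2)
    · exact congrFun hr ⟨j, hj⟩
  -- the injection into the sigma type
  let tgt : Finset (Σ _ : R, Finset (Fin D)) :=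
    (univ : Finset R).sigma fun r => univ.filter fun S : Finset (Fin D) => ∑ i ∈ S, a i = τ r
  have hcard : (univ.filter fun x : κ → ℤˣ => sdot x w = c).card ≤ tgt.card := by
    apply Finset.card_le_card_of_injOn (fun x => (⟨ρ x, Pm x⟩ : Σ _ : R, Finset (Fin D)))
    · intro x hx
      have hx' : sdot x w = c := by simpa using hx
      rw [hkey x] at hx'
      simp only [tgt, Finset.coe_sigma, Set.mem_sigma_iff, Finset.coe_univ, Set.mem_univ,
        true_and, Finset.coe_filter, Finset.mem_univ, Set.mem_ofPred_eq, τ]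
      linarith
    · intro x _ y _ hxy
      simp only [Sigma.mk.injEq, heq_eq_eq] at hxy
      exact hinj x y hxy.1 hxy.2
  have htgt : (tgt.card : ℝ) * ((D : ℝ) * Real.sqrt (D : ℝ)) ≤
      (Fintype.card R : ℝ) * (C * 2 ^ D) := by
    rw [Finset.card_sigma]
    push_cast
    rw [Finset.sum_mul]
    calc ∑ r : R, ((univ.filter fun S : Finset (Fin D) => ∑ i ∈ S, a i = τ r).card : ℝ) *
          ((D : ℝ) * Real.sqrt (D : ℝ))
        ≤ ∑ _r : R, C * 2 ^ D := Finset.sum_le_sum (fun r _ => h4 D a ha_pos ha_mono (τ r))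
      _ = (Fintype.card R : ℝ) * (C * 2 ^ D) := by
          rw [Finset.sum_const, Finset.card_univ, nsmul_eq_mul]
  -- the number of restrictions
  have hR : Fintype.card R = 2 ^ Fintype.card {j // ¬ p j} := by
    simp only [R]
    rw [Fintype.card_fun, Fintype.card_units_int]
  have hDle : D + Fintype.card {j // ¬ p j} ≤ Fintype.card κ := by
    have h1 : Fintype.card (Fin D) ≤ Fintype.card {j // p j} :=
      Fintype.card_le_of_injective (fun i => (⟨g i, i, rfl⟩ : {j // p j}))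
        (fun i i' h => hg_inj (congrArg Subtype.val h))
    rw [Fintype.card_fin] at h1
    have h2 : Fintype.card {j // ¬ p j} = Fintype.card κ - Fintype.card {j // p j} :=
      Fintype.card_subtype_compl p
    have h3 : Fintype.card {j // p j} ≤ Fintype.card κ := Fintype.card_subtype_le p
    omega
  have hsq : 0 ≤ (D : ℝ) * Real.sqrt (D : ℝ) :=
    mul_nonneg (Nat.cast_nonneg _) (Real.sqrt_nonneg _)
  calc ((univ.filter fun x : κ → ℤˣ => sdot x w = c).card : ℝ) * ((D : ℝ) * Real.sqrt (D : ℝ))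
      ≤ (tgt.card : ℝ) * ((D : ℝ) * Real.sqrt (D : ℝ)) :=
        mul_le_mul_of_nonneg_right (by exact_mod_cast hcard) hsq
    _ ≤ (Fintype.card R : ℝ) * (C * 2 ^ D) := htgt
    _ = C * 2 ^ (D + Fintype.card {j // ¬ p j}) := by
        rw [hR]
        push_cast
        ring
    _ ≤ C * 2 ^ Fintype.card κ := by
        apply mul_le_mul_of_nonneg_left _ hC.le
        exact pow_le_pow_right₀ (by norm_num) hDle

/-- Existential form: from piece SS-4 with any constant (positivity not needed) to the exact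
shape of `ss_row`. -/
theorem ss_row_of_exists
    (h4 : ∃ C : ℝ, ∀ (n : ℕ) (a : Fin n → ℝ), (∀ i, 0 < a i) → StrictMono a → ∀ x : ℝ,
      ((univ.filter fun S : Finset (Fin n) => ∑ i ∈ S, a i = x).card : ℝ) *
        ((n : ℝ) * Real.sqrt (n : ℝ)) ≤ C * 2 ^ n) :
    ∃ C : ℝ, 0 < C ∧ ∀ (κ : Type) [Fintype κ] [DecidableEq κ] (w : κ → ℝ) (c : ℝ)
      (D : ℕ), D ≤ dabs w →
      ((univ.filter fun x : κ → ℤˣ => sdot x w = c).card : ℝ) *
        ((D : ℝ) * Real.sqrt (D : ℝ)) ≤ C * 2 ^ Fintype.card κ := by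
  obtain ⟨C, hC⟩ := h4
  have hpos : (0 : ℝ) < max C 1 := lt_of_lt_of_le one_pos (le_max_right _ _)
  refine ⟨max C 1, hpos, ?_⟩
  apply ss_row_of (max C 1) hpos
  intro n a ha hmono x
  refine (hC n a ha hmono x).trans ?_
  exact mul_le_mul_of_nonneg_right (le_max_left _ _) (by positivity)

end Vale.Agent.Lib.P160.H70
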